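import Vale.Agent.P106.W518.Tree

/-!
# P106 / W : entropies from the counts on the truncated cone (helper518)

`RC` : the counts of a regular system; `RC.cts`, and the consequences used by E1, E2, E5, E6:
`RC.hN`, `RC.Y_N`, `RC.x_N`, `RC.x_NN` (E1), `RC.En_mono` (E2), `RC.D_le`, `RC.D_shift`, `RC.H_back`.
-/

set_option autoImplicit false

namespace Vale.Agent.P106.W518

open Filter Topology Finset Vale.Agent.P127 Vale.Agent.P127.U Vale.Agent.P127.U.Sys Vale.Agent.P122.E Vale.Agent.P122.C2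
  Vale.Agent.P122.H518

/-- the counts of a regular system of flags of the truncated cone -/
structure RC (S : Sys) (K h : ℕ) (n : ℕ → ℕ) (N : ℕ → S.RV W.Nd) (H J θ : ℕ → ℝ) : Prop where
  hK : 1 ≤ K
  L_eq : ∀ i, S.L i = K * n i
  stp : Stp S K h n N
  kid : ∀ c, c < K → Cnt S (Yv N (c + 1)) (N c) (J c)
  x1 : Cnt S (N 0) (one (S := S)) (H 0)
  flag : Unf S (Sys.pr (N 0) (Yv N K)) (H 0 + ∑ c ∈ range K, J c)
  Nu : ∀ c, c ≤ K → Unf S (N c) (H c)
  N1 : ∀ c, c ≤ K → Cnt S (N c) (one (S := S)) (H c)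
  B1 : ∀ c, c < K → Cnt S (N c) (gv n N c) (2 / K - 2 * θ c)

namespace RC

variable {S : Sys} {K h : ℕ} {n : ℕ → ℕ} {N : ℕ → S.RV W.Nd} {H J θ : ℕ → ℝ}

theorem cts (R : RC S K h n N H J θ) : Cts S K N (Yv N) (Tv N) (gv n N) H J θ where
  tre := tre R.stp fun c hc => cnt_tame (R.N1 c hc)
  H0 := cnt_hc_le R.x1
  hJ := fun c hc => cnt_hc_le (R.kid c hc)
  hU := by
    refine unf_le_h R.flag ?_
    refine Tame.pr (cnt_tame R.x1) ?_
    exact (cnt_tame (R.N1 K le_rfl)).mono (F_YN K)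
  hN := fun c hc => unf_cnt_h (R.Nu c hc) (R.N1 c hc)
  hB := fun c hc => cnt_hc_le (R.B1 c hc)
  hT := fun _ hc => cnt_hc_le (cT R.stp R.hK R.L_eq hc)

/-- the five equalities of **E1** -/
theorem e1 (R : RC S K h n N H J θ) :
    (∀ c, c ≤ K → S.hc (N c) (one (S := S)) = H c) ∧
    (∀ c d, c ≤ d → d ≤ K → S.hc (Yv N d) (N c) = nM J d - nM J c) ∧
    (∀ c d, c ≤ d → d ≤ K → S.hc (Yv N d) (Sys.pr (N 0) (Yv N c)) = nM J d - nM J c) ∧
    (∀ c d, c ≤ d → d ≤ K → S.hc (Yv N d) (Sys.pr (N 0) (N c)) = nM J d - nM J c) ∧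
    (∀ c, c ≤ K → S.hc (N 0) (N c) = H 0 + nM J c - H c) ∧
    (∀ c d, c ≤ d → d ≤ K → S.hc (N 0) (Sys.pr (N c) (N d)) = H 0 + nM J c - H c) := by
  have h := R.cts
  refine ⟨h.hN, ?_, ?_, ?_, ?_, ?_⟩
  · intro c d hcd hd
    rw [← nM_sub J hcd]
    exact (h.markov hcd hd).2
  · intro c d hcd hd
    rw [← nM_sub J hcd, ← (h.markov hcd hd).1]
    have hc := hcd.trans hd
    refine hc_congr (ffst _ _) (ffst _ _) ?_ ?_
    · exact fpr (ffst _ _) (ftr (h.tre.YN c hc) (fsnd _ _))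
    · exact fpr (ffst _ _) (h.tre.NxY le_rfl hc)
  · intro c d hcd hd
    rw [← nM_sub J hcd]
    exact (h.markov hcd hd).1
  · intro c hc
    exact h.hc_x_N hc
  · intro c d hcd hd
    have hc := hcd.trans hd
    have h1 := h.mi_N hcd hd
    have h2 := h.hc_x_N hc
    rw [← h1] at h2
    refine Eq.trans ?_ h2
    exact hc_congr (ffst _ _) (ffst _ _) (fpr (fsnd _ _) (ffst _ _)) (fpr (fsnd _ _) (ffst _ _))

/-- **E2** -/
theorem e2 (R : RC S K h n N H J θ) {c d : ℕ} (hcd : c ≤ d) (hd : d ≤ K) : nE K J θ H c ≤ nE K J θ H d :=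
  R.cts.En_mono hcd hd

/-- the time deficit -/
noncomputable def Dt (S : Sys) (K : ℕ) (N : ℕ → S.RV W.Nd) (c d : ℕ) : ℝ :=
  2 * ((d : ℝ) - c) / K - S.hc (Tv N c) (N d)

theorem D_nonneg (R : RC S K h n N H J θ) {c d : ℕ} (hcd : c ≤ d) (hd : d ≤ K) : 0 ≤ Dt S K N c d :=
  R.cts.Dn_nonneg hcd hd

/-- `D c j ≤ nE j - nE c` -/
theorem D_le_nE (R : RC S K h n N H J θ) {c j : ℕ} (hcj : c ≤ j) (hj : j ≤ K) :
    Dt S K N c j ≤ nE K J θ H j - nE K J θ H c := by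
  have h := R.cts
  have h1 := h.En_sub hcj hj
  have h2 := h.Cn_ge hcj hj
  have h3 : Cts.Dn S K N (Tv N) c j = Dt S K N c j := rfl
  have h4 : nE K J θ H j - nE K J θ H c = Cts.En K H J θ j - Cts.En K H J θ c := rfl
  rw [h4, h1, h3]
  linarith

/-- `D c j ≤ D i j + 2 (i - c) / K` -/
theorem D_shift (R : RC S K h n N H J θ) {c i j : ℕ} (hci : c ≤ i) (hij : i ≤ j)
    (hj : j ≤ K) : Dt S K N c j ≤ Dt S K N i j + 2 * ((i : ℝ) - c) / K := by
  have h := R.cts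
  have t1 := h.tre.tT (c := c) (by omega)
  have t2 := h.tre.tT (c := i) (by omega)
  have h1 : S.hc (Tv N i) (N j) ≤ S.hc (Tv N c) (N j) :=
    hc_mono_left t1 t2 (ftr (h.tre.TT' hci (by omega)) (ffst _ _))
  unfold Dt
  have h2 : 2 * ((j : ℝ) - c) / K = 2 * ((j : ℝ) - i) / K + 2 * ((i : ℝ) - c) / K := by ring
  rw [h2]
  linarith

/-- one step back: `H c ≤ H (c + 1) + 4 / K` -/
theorem H_back_succ (R : RC S K h n N H J θ) {c : ℕ} (hc : c < K) :
    H c ≤ H (c + 1) + 4 / K := by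
  have h := R.cts
  have t1 := h.tre.tN c hc.le
  have t2 := h.tre.tN (c + 1) hc
  have h1 := info_le t1 t2
  have h2 := h.hc_NN_cut (Nat.le_succ c) hc
  have h3 : S.hc (Tv N c) (N (c + 1)) ≤ S.hc (Tv N c) (Tv N (c + 1)) :=
    hc_mono_right (h.tre.tT hc.le) (h.tre.TN (c + 1) hc)
  have h4 := h.hT c hc
  have h5 : S.hc (N c) (Sys.pr (Tv N c) (N (c + 1))) ≤ S.hc (N c) (gv n N c) :=
    hc_mono_right t1 (h.tre.gT c hc)
  have h6 := cnt_hc_le (cN (N := N) R.hK R.L_eq c)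
  have h7 : S.hc (N c) (one (S := S)) = H c := h.hN c hc.le
  have h8 : S.hc (N (c + 1)) (one (S := S)) = H (c + 1) := h.hN (c + 1) hc
  have h9 : (4 : ℝ) / K = 2 / K + 2 / K := by ring
  rw [h7, h8] at h1
  rw [h9]
  linarith

/-- `H c ≤ H i + 4 (i - c) / K` -/
theorem H_back (R : RC S K h n N H J θ) {c i : ℕ} (hci : c ≤ i) (hi : i ≤ K) :
    H c ≤ H i + 4 * ((i : ℝ) - c) / K := by
  induction i, hci using Nat.le_induction with
  | base => simp
  | succ i hci ih =>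
    have g1 := ih (by omega)
    have g2 := R.H_back_succ (c := i) (by omega)
    have g3 : 4 * (((i + 1 : ℕ) : ℝ) - c) / K = 4 * ((i : ℝ) - c) / K + 4 / K := by
      push_cast
      ring
    rw [g3]
    linarith

/-- one step forward: `H (c + 1) ≤ H c + J c` -/
theorem H_fwd (R : RC S K h n N H J θ) {c d : ℕ} (hcd : c ≤ d) (hd : d ≤ K) :
    H d ≤ H c + (nM J d - nM J c) := by
  have h := R.cts
  have hc := hcd.trans hd
  have t1 := h.tre.tN c hc
  have t2 := h.tre.tN d hd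
  have tY := h.tre.tY hd
  have h1 : S.hc (N d) (one (S := S)) ≤ S.hc (Sys.pr (N c) (Yv N d)) (one (S := S)) :=
    hc_mono_left (t1.pr tY) t2 (ftr (h.tre.NNY hcd hd) (ffst _ _))
  have h2 := hc_pair t1 tY (one (S := S))
  have h3 : S.hc (Yv N d) (Sys.pr (N c) (one (S := S))) = S.hc (Yv N d) (N c) :=
    hc_congr (ffst _ _) (ffst _ _) (fpr (frf _) (fone _)) (ffst _ _)
  have h4 := (R.e1).2.1 c d hcd hd
  have h5 : S.hc (N c) (one (S := S)) = H c := h.hN c hc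
  have h6 : S.hc (N d) (one (S := S)) = H d := h.hN d hd
  rw [h6] at h1
  rw [h5, h3, h4] at h2
  linarith

end RC

end Vale.Agent.P106.W518
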