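import Vale.Agent.P106.W.Defs
import Vale.Agent.P122.H518.E12
import Vale.Agent.P122.H518.E6

/-!
# P106 / W : the tree of the planks of the truncated cone is an exact tree (helper518)

Any system of variables `N c` (`c ≤ K`) with the child relation of `W/Defs.lean`; the entropy bookkeeping of
`P122/H518/ChainS` (`Tre`, `Cts`) applies.

* `Stp` : the child relation; `tre` : `Tre`; `cT` : number of the time blocks; `cN` : a node given its piece.
-/

set_option autoImplicit false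

namespace Vale.Agent.P106.W518

open Filter Topology Finset Vale.Agent.P127 Vale.Agent.P127.U Vale.Agent.P127.U.Sys Vale.Agent.P122.E Vale.Agent.P122.C2
  Vale.Agent.P122.H518

variable {S : Sys}

/-- the child relation -/
def Stp (S : Sys) (K h : ℕ) (n : ℕ → ℕ) (N : ℕ → S.RV W.Nd) : Prop := ∀ i ω, 0 < (S.P i).w ω → ∀ c, c < K →
  (N (c + 1) i ω).b.τ ∈ kids (n i) (N c i ω).b.τ ∧
    N (c + 1) i ω = ((N c i ω).sg (n i)).ch (n i) h c (N (c + 1) i ω).b.τ

/-- the cap -/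
def Yv (N : ℕ → S.RV W.Nd) (c : ℕ) : S.RV Z2 := fun i ω => (N c i ω).b.τ

/-- the time block -/
def Tv (N : ℕ → S.RV W.Nd) (c : ℕ) : S.RV ℤ := fun i ω => (N c i ω).b.T

/-- the piece -/
noncomputable def gv (n : ℕ → ℕ) (N : ℕ → S.RV W.Nd) (c : ℕ) : S.RV W.Nd := fun i ω => (N c i ω).sg (n i)

variable {K h : ℕ} {n : ℕ → ℕ} {N : ℕ → S.RV W.Nd}

theorem stp_cap (hs : Stp S K h n N) {c : ℕ} (hc : c < K) (i : ℕ) (ω : S.Ω i) (hω : 0 < (S.P i).w ω) (k : Fin 2) :
    (N c i ω).b.τ k = (N (c + 1) i ω).b.τ k / 2 ^ n i := kids_div (hs i ω hω c hc).1 k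

theorem stp_T (hs : Stp S K h n N) {c : ℕ} (hc : c < K) (i : ℕ) (ω : S.Ω i) (hω : 0 < (S.P i).w ω) :
    (N (c + 1) i ω).b.T = (N c i ω).b.T / 2 ^ (2 * n i) := by
  rw [(hs i ω hω c hc).2]
  rfl

theorem stp_o (hs : Stp S K h n N) {c : ℕ} (hc : c < K) (i : ℕ) (ω : S.Ω i) (hω : 0 < (S.P i).w ω) (k : Fin 2) :
    (N (c + 1) i ω).b.o k = ⌊(((N c i ω).b.o k / 2 ^ n i : ℤ) : ℝ) -
      (((N c i ω).b.T % 2 ^ (2 * n i) : ℤ) : ℝ) * 2 ^ (2 * c * n i) *
        W.s0 (n i) (c + 1) (N (c + 1) i ω).b.τ k / 2 ^ ((c + 1) * n i)⌋ := by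
  have h0 := congrArg (fun q : W.Nd => q.b.o k) (hs i ω hω c hc).2
  exact h0

theorem stp_w (hs : Stp S K h n N) {c : ℕ} (hc : c < K) (i : ℕ) (ω : S.Ω i) (hω : 0 < (S.P i).w ω) :
    (N (c + 1) i ω).w = (N c i ω).w + ⌊W.tl (n i) h ((N c i ω).b.sg (n i)) (N (c + 1) i ω).b.τ⌋ := by
  have h0 := congrArg (fun q : W.Nd => q.w) (hs i ω hω c hc).2
  refine h0.trans ?_
  show ⌊(((N c i ω).sg (n i)).w : ℝ) + W.tl (n i) h ((N c i ω).sg (n i)).b (N (c + 1) i ω).b.τ⌋ = _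
  rw [Int.floor_intCast_add]
  rfl

theorem F_YN (c : ℕ) : Sys.Fn (Yv N c) (N c) := Eventually.of_forall fun _ _ _ _ _ e => congrArg (fun q : W.Nd => q.b.τ) e

theorem F_TN (c : ℕ) : Sys.Fn (Tv N c) (N c) := Eventually.of_forall fun _ _ _ _ _ e => congrArg (fun q : W.Nd => q.b.T) e

theorem F_gN (c : ℕ) : Sys.Fn (gv n N c) (N c) :=
  Eventually.of_forall fun i _ _ _ _ e => congrArg (W.Nd.sg (n i)) e

theorem F_NY (hs : Stp S K h n N) {c : ℕ} (hc : c < K) : Sys.Fn (N (c + 1)) (Sys.pr (gv n N c) (Yv N (c + 1))) := by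
  refine Eventually.of_forall fun i ω ω' hω hω' e => ?_
  have e1 : (N c i ω).sg (n i) = (N c i ω').sg (n i) := congrArg Prod.fst e
  have e2 : (N (c + 1) i ω).b.τ = (N (c + 1) i ω').b.τ := congrArg Prod.snd e
  rw [(hs i ω hω c hc).2, (hs i ω' hω' c hc).2, e1, e2]

theorem F_YY (hs : Stp S K h n N) {c : ℕ} (hc : c < K) : Sys.Fn (Yv N c) (Yv N (c + 1)) := by
  refine Eventually.of_forall fun i ω ω' hω hω' e => ?_
  have e2 : (N (c + 1) i ω).b.τ = (N (c + 1) i ω').b.τ := e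
  show (N c i ω).b.τ = (N c i ω').b.τ
  funext k
  rw [stp_cap hs hc i ω hω, stp_cap hs hc i ω' hω', e2]

theorem F_TT (hs : Stp S K h n N) {c : ℕ} (hc : c < K) : Sys.Fn (Tv N (c + 1)) (Tv N c) := by
  refine Eventually.of_forall fun i ω ω' hω hω' e => ?_
  have e2 : (N c i ω).b.T = (N c i ω').b.T := e
  show (N (c + 1) i ω).b.T = (N (c + 1) i ω').b.T
  rw [stp_T hs hc i ω hω, stp_T hs hc i ω' hω', e2]

theorem F_gT (hs : Stp S K h n N) {c : ℕ} (hc : c < K) : Sys.Fn (gv n N c) (Sys.pr (Tv N c) (N (c + 1))) := by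
  refine Eventually.of_forall fun i ω ω' hω hω' e => ?_
  have e1 : (N c i ω).b.T = (N c i ω').b.T := congrArg Prod.fst e
  have e2 : N (c + 1) i ω = N (c + 1) i ω' := congrArg Prod.snd e
  have e3 : (N c i ω).b.τ = (N c i ω').b.τ := by
    funext k
    rw [stp_cap hs hc i ω hω, stp_cap hs hc i ω' hω', e2]
  have e4 : (N c i ω).b.sg (n i) = (N c i ω').b.sg (n i) := by
    unfold Vale.Agent.P122.C2.Nd.sg
    rw [e1, e3]
    congr 1
    funext k
    have h1 := stp_o hs hc i ω hω k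
    have h2 := stp_o hs hc i ω' hω' k
    rw [e2, e1] at h1
    rw [h1] at h2
    rw [sub_eq_add_neg, sub_eq_add_neg, Int.floor_intCast_add, Int.floor_intCast_add] at h2
    exact add_right_cancel h2
  have h1 := stp_w hs hc i ω hω
  have h2 := stp_w hs hc i ω' hω'
  rw [e2, e4] at h1
  rw [h1] at h2
  show (N c i ω).sg (n i) = (N c i ω').sg (n i)
  unfold W.Nd.sg
  rw [e4, add_right_cancel h2]

/-- **exact tree** -/
theorem tre (hs : Stp S K h n N) (hN : ∀ c, c ≤ K → Tame (N c)) : Tre S K N (Yv N) (Tv N) (gv n N) where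
  tN := hN
  YN := fun _ _ => F_YN _
  TN := fun _ _ => F_TN _
  gN := fun _ _ => F_gN _
  NY := fun _ hc => F_NY hs hc
  YY := fun _ hc => F_YY hs hc
  TT := fun _ hc => F_TT hs hc
  gT := fun _ hc => F_gT hs hc

theorem pow_le_exp {r : ℕ} (hK : 1 ≤ K) (hL : ∀ i, S.L i = K * n i) (i : ℕ) {ε : ℝ} (hε : 0 < ε) :
    ((2 ^ (r * n i) : ℕ) : ℝ) ≤ (2 : ℝ) ^ (((r : ℝ) / K + ε) * (S.L i : ℝ)) := by
  have hK' : (0 : ℝ) < K := by exact_mod_cast hK
  have h2 : ((2 ^ (r * n i) : ℕ) : ℝ) = (2 : ℝ) ^ ((r / K) * (S.L i : ℝ)) := by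
    rw [hL i]
    push_cast
    have h3 : (r : ℝ) / K * (K * n i) = ((r * n i : ℕ) : ℝ) := by
      push_cast
      field_simp
    rw [h3, Real.rpow_natCast]
  rw [h2]
  refine Real.rpow_le_rpow_of_exponent_le (by norm_num) ?_
  have h4 : (0 : ℝ) ≤ S.L i := Nat.cast_nonneg _
  nlinarith

/-- number of the time blocks -/
theorem cT (hs : Stp S K h n N) (hK : 1 ≤ K) (hL : ∀ i, S.L i = K * n i) {c : ℕ} (hc : c < K) :
    Cnt S (Tv N c) (Tv N (c + 1)) (2 / K) := by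
  intro ε hε
  refine Eventually.of_forall fun i ω hω => ?_
  refine ⟨Finset.Ico (2 ^ (2 * n i) * (N (c + 1) i ω).b.T) (2 ^ (2 * n i) * ((N (c + 1) i ω).b.T + 1)), ?_, ?_⟩
  · rw [Int.card_Ico]
    have h1 : 2 ^ (2 * n i) * ((N (c + 1) i ω).b.T + 1) - 2 ^ (2 * n i) * (N (c + 1) i ω).b.T =
        ((2 ^ (2 * n i) : ℕ) : ℤ) := by
      push_cast
      ring
    rw [h1, Int.toNat_natCast]
    exact_mod_cast pow_le_exp (r := 2) hK hL i hε
  · intro ω' hω' e
    have e1 : (N (c + 1) i ω').b.T = (N (c + 1) i ω).b.T := e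
    show (N c i ω').b.T ∈ _
    rw [Finset.mem_Ico, ← e1, stp_T hs hc i ω' hω']
    have h2 : (0 : ℤ) < 2 ^ (2 * n i) := by positivity
    constructor
    · exact Int.mul_ediv_self_le h2.ne'
    · exact Int.lt_mul_ediv_self_add h2 |>.trans_eq (by ring)

/-- a node given its piece -/
theorem cN (hK : 1 ≤ K) (hL : ∀ i, S.L i = K * n i) (c : ℕ) : Cnt S (N c) (gv n N c) (2 / K) := by
  classical
  intro ε hε
  refine Eventually.of_forall fun i ω hω => ?_
  refine ⟨(Fintype.piFinset fun k => Finset.Ico (2 ^ n i * (gv n N c i ω).b.o k)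
    (2 ^ n i * ((gv n N c i ω).b.o k + 1))).image fun o =>
      (⟨⟨(gv n N c i ω).b.τ, o, (gv n N c i ω).b.T⟩, (gv n N c i ω).w⟩ : W.Nd), ?_, ?_⟩
  · have h0 : (((Fintype.piFinset fun k => Finset.Ico (2 ^ n i * (gv n N c i ω).b.o k)
        (2 ^ n i * ((gv n N c i ω).b.o k + 1))).image fun o =>
          (⟨⟨(gv n N c i ω).b.τ, o, (gv n N c i ω).b.T⟩, (gv n N c i ω).w⟩ : W.Nd)).card : ℝ) ≤
          ((2 ^ (2 * n i) : ℕ) : ℝ) := by
      refine Nat.cast_le.2 (Finset.card_image_le.trans ?_)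
      rw [Fintype.card_piFinset]
      have h1 : ∀ k : Fin 2, (Finset.Ico (2 ^ n i * (gv n N c i ω).b.o k)
          (2 ^ n i * ((gv n N c i ω).b.o k + 1))).card = 2 ^ n i := by
        intro k
        rw [Int.card_Ico]
        have h2 : 2 ^ n i * ((gv n N c i ω).b.o k + 1) - 2 ^ n i * (gv n N c i ω).b.o k =
            ((2 ^ n i : ℕ) : ℤ) := by
          push_cast
          ring
        rw [h2, Int.toNat_natCast]
      rw [Finset.prod_congr rfl fun k _ => h1 k]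
      simp only [Finset.prod_const, Finset.card_univ, Fintype.card_fin]
      rw [← pow_mul, mul_comm]
    refine h0.trans ?_
    exact_mod_cast pow_le_exp (r := 2) hK hL i hε
  · intro ω' hω' e'
    have e1 : (N c i ω').sg (n i) = gv n N c i ω := e'
    rw [Finset.mem_image]
    refine ⟨(N c i ω').b.o, ?_, ?_⟩
    · rw [Fintype.mem_piFinset]
      intro k
      rw [Finset.mem_Ico, ← e1]
      have h2 : (0 : ℤ) < 2 ^ n i := by positivity
      constructor
      · exact Int.mul_ediv_self_le h2.ne'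
      · exact Int.lt_mul_ediv_self_add h2 |>.trans_eq (by
          show _ = 2 ^ n i * ((N c i ω').b.o k / 2 ^ n i + 1)
          ring)
    · rw [← e1]
      rfl

end Vale.Agent.P106.W518
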